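import Crest.Agent.X261.Fam77.Bd
import Crest.Agent.X261.Fam.FsA
import Crest.Agent.X261.Fam.Mol

/-!
# Row 261, package FAM (helper65): the holomorphic limit of a minimising sequence

* `p2_Sl`, `n2_Sl` : the vertical energy is the norm of `∂f ∧ da`; `cont_Sl`, `cont_e0`;
* `sl_le` : `L²` norms of `Sl` on compact sets; `db_of_close` : weak `∂̄` passes to close sequences;
* `exists_S`, `orth_of`, `isMin_of`.
-/

set_option autoImplicit false
set_option linter.unusedSectionVars false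

open Set Filter Topology MeasureTheory Matrix
open scoped ComplexConjugate ComplexOrder InnerProductSpace ContDiff

namespace Crest.Agent.X261.Fam65

open Crest.Agent.R275.Geo Crest.Agent.R273.UCov_914 Crest.Agent.R273.Kah_333
open Crest.Agent.R273.Fock_243 Crest.Agent.R275.EDR890 Crest.Agent.R273.Hess_333
open Crest.Agent.R273.GamR_155
open Crest.Agent.X261.Fam Crest.Agent.X261.Rel.Act

noncomputable section

variable {n q : ℕ} {X : Type} [TopologicalSpace X] {A : Atl n X} {G : Type} [Group G]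

section flat

variable {H : Type*} [NormedAddCommGroup H] [InnerProductSpace ℂ H]

theorem p2_vI (g : Mt n) (C : Mr n q) (θ θ' : Fin n → H) :
    p2 g (ac (vI C) θ) (ac (vI C) θ') = ip (Q0 g C) θ θ' := by
  rw [Q0, ip_smul, ip_conj, p2]

theorem p2_Sl (g : Mt n) (a : Cn n → Cn q) (u F : Cn n → H) (z : Cn n) :
    p2 g (Sl a u z) (Sl a F z) = ip (Q0 g (Cf a z)) (th u z) (th F z) := p2_vI g _ _ _

theorem n2_vI (g : Mt n) (C : Mr n q) (θ : Fin n → H) : n2 g (ac (vI C) θ) = e0 g C θ :=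
  congrArg Complex.re (p2_vI g C θ θ)

theorem n2_Sl (g : Mt n) (a : Cn n → Cn q) (F F' : Cn n → H) (z : Cn n) :
    n2 g (Sl a F z - Sl a F' z) = e0 g (Cf a z) (th F z - th F' z) := by
  rw [← n2_vI, ac_sub]
  rfl

theorem cont_vI (I : FI n) (b : Fin n) : Continuous fun C : Mr n q => vI C I b := by
  have h : ∀ J K, Continuous fun C : Mr n q => GamR C J K := fun J K => by
    unfold GamR
    split_ifs with h
    · exact (continuous_id.matrix_submatrix _ _).matrix_det
    · exact continuous_const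
  simp only [vI, tau, Matrix.of_apply, Matrix.mulVec, dotProduct]
  fun_prop

variable {U : Set (Cn n)} {a : Cn n → Cn q} {F F' : Cn n → H}

theorem cont_Cf (hU : IsOpen U) (ha : DifferentiableOn ℂ a U) : ContinuousOn (Cf a) U :=
  continuousOn_pi.2 fun b => continuousOn_pi.2 fun h _ hz =>
    (Fs.Cf_sm hU ha hz b h).continuousAt.continuousWithinAt

theorem cont_th (hU : IsOpen U) (hF : ContDiffOn ℝ ∞ F U) (b : Fin n) :
    ContinuousOn (fun z => th F z b) U := (contDiffOn_wd hU hF _).continuousOn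

theorem cont_Sl (hU : IsOpen U) (ha : DifferentiableOn ℂ a U) (hF : ContDiffOn ℝ ∞ F U)
    (I : FI n) : ContinuousOn (fun z => Sl a F z I) U :=
  continuousOn_finsetSum (f := fun b z => vI (Cf a z) I b • th F z b) Finset.univ fun b _ =>
    ((cont_vI I b).comp_continuousOn (cont_Cf hU ha)).smul (cont_th hU hF b)

theorem Sl_zero {u : Cn n → H} {z : Cn n} (hz : z ∉ tsupport u) : Sl a u z = 0 := by
  funext I
  simp [Sl, ac, th, Mol.wd_zero hz]

theorem norm_pair_le {K : Set (Cn n)} (hK : IsCompact K) {c : Cn n → ℂ} {g : Cn n → H}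
    (hc : ContinuousOn c K) (hg : ContinuousOn g K) {s : ℝ} (hs : 0 < s) :
    ‖∫ z in K, c z • g z‖ ≤ s / 2 * (∫ z in K, ‖c z‖ ^ 2) + 1 / (2 * s) * ∫ z in K, ‖g z‖ ^ 2 := by
  have i1 := ((hc.norm.fun_pow 2).integrableOn_compact (μ := volume) hK).const_mul (s / 2)
  have i2 := ((hg.norm.fun_pow 2).integrableOn_compact (μ := volume) hK).const_mul (1 / (2 * s))
  rw [← integral_const_mul, ← integral_const_mul, ← integral_add i1 i2]
  exact norm_integral_le_of_norm_le (i1.add i2) (Eventually.of_forall fun z => by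
    rw [norm_smul]
    exact amgm _ _ s hs)

/-- `x ≤ s a + b / s` with `b` small -/
theorem tendsto_of_am {x b : ℕ → ℝ} {a : ℝ} (hb : Tendsto b atTop (𝓝 0))
    (h : ∀ s, 0 < s → ∀ k, |x k| ≤ s / 2 * a + 1 / (2 * s) * b k) : Tendsto x atTop (𝓝 0) := by
  refine Metric.tendsto_nhds.2 fun ε hε => ?_
  obtain ⟨s, hs, h1⟩ := Mol.small (abs_nonneg a) hε
  have h2 := hb.const_mul (1 / (2 * s))
  rw [mul_zero] at h2
  filter_upwards [h2.eventually (gt_mem_nhds (half_pos hε))] with k hk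
  rw [Real.dist_eq, sub_zero]
  nlinarith [h s hs k, h1 s le_rfl, mul_le_mul_of_nonneg_left (le_abs_self a) hs.le]

end flat

variable {H : Type} [NormedAddCommGroup H] [InnerProductSpace ℂ H] {D : MonD A G} {M : Subgroup G}
  {a : D.cov G → Cn q} {f : ℕ → D.cov G → H} {S : A.ι → G → X → FI n → H} {i : A.ι}

theorem hol_rd (hd : Dat D M a) (i : A.ι) (v : G) :
    DifferentiableOn ℂ (rd D a i v) (A.e i).target := by
  have := hd.hol (i, v)
  rwa [preimage_univ, inter_univ] at this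

theorem sm_rd {g : D.cov G → H} (hg : (D.atl G).Sm g) (i : A.ι) (v : G) :
    ContDiffOn ℝ ∞ (rd D g i v) (A.e i).target := hg (i, v)

theorem cont_e0 (K : Kah A) {b : Cn n → Cn q} (hb : DifferentiableOn ℂ b (A.e i).target)
    {F F' : Cn n → H} (hF : ContDiffOn ℝ ∞ F (A.e i).target)
    (hF' : ContDiffOn ℝ ∞ F' (A.e i).target) : ContinuousOn
      (fun z => e0 (K.g i ((A.e i).symm z)) (Cf b z) (th F z - th F' z)) (A.e i).target := by
  simp only [← n2_Sl]
  exact Fam77.cont_n2 K i subset_rfl fun I =>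
    (cont_Sl (A.e i).open_target hb hF I).sub (cont_Sl (A.e i).open_target hb hF' I)

/-- the `L²` norm of `Sl` is bounded by the vertical energy -/
theorem sl_le (K : Kah A) {Kc : Set (Cn n)} (hK : IsCompact Kc) (hs : Kc ⊆ (A.e i).target) :
    ∃ C : ℝ, 0 < C ∧ ∀ (b : Cn n → Cn q) (F F' : Cn n → H), DifferentiableOn ℂ b (A.e i).target →
      ContDiffOn ℝ ∞ F (A.e i).target → ContDiffOn ℝ ∞ F' (A.e i).target → ∀ I,
      ∫ z in Kc, ‖Sl b F z I - Sl b F' z I‖ ^ 2 ≤
        C * ∫ z in Kc, e0 (K.g i ((A.e i).symm z)) (Cf b z) (th F z - th F' z) := by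
  obtain ⟨C, h0, hC⟩ := Fam77.exists_lo K i hK hs
  refine ⟨C, h0, fun b F F' hb hF hF' I => ?_⟩
  rw [← integral_const_mul]
  refine integral_mono_of_nonneg (Eventually.of_forall fun _ => sq_nonneg _)
    ((((cont_e0 K hb hF hF').mono hs).integrableOn_compact hK).const_mul C)
    ((ae_restrict_iff' hK.measurableSet).2 (Eventually.of_forall fun z hz => ?_))
  exact (hC z hz (Sl b F z - Sl b F' z) I).trans_eq (congrArg _ (n2_Sl _ _ _ _ _))

/-- small pairings pass to sequences which are close in energy -/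
theorem db_of_close (K : Kah A) {b : Cn n → Cn q} (hb : DifferentiableOn ℂ b (A.e i).target)
    {g : ℕ → Cn n → H} (hg : ∀ k, ContDiffOn ℝ ∞ (g k) (A.e i).target) {c : Cn n → ℂ}
    (hc : Continuous c) {Kc : Set (Cn n)} (hK : IsCompact Kc) (hs : Kc ⊆ (A.e i).target)
    (h0 : ∀ z ∉ Kc, c z = 0) (I : FI n)
    (h : ∀ δ : ℝ, 0 < δ → ∃ F : Cn n → H, ContDiffOn ℝ ∞ F (A.e i).target ∧
      ‖∫ z, c z • Sl b F z I‖ ^ 2 ≤ δ ∧ ∀ᶠ k in atTop,
        ∫ z in Kc, e0 (K.g i ((A.e i).symm z)) (Cf b z) (th F z - th (g k) z) ≤ δ) :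
    Tendsto (fun k => ∫ z, c z • Sl b (g k) z I) atTop (𝓝 0) := by
  obtain ⟨C, hC0, hC⟩ := sl_le (H := H) (q := q) K hK hs
  have hU := (A.e i).open_target
  have h1 : ∀ F : Cn n → H, ∫ z, c z • Sl b F z I = ∫ z in Kc, c z • Sl b F z I := fun F =>
    (setIntegral_eq_integral_of_forall_compl_eq_zero fun z hz => by rw [h0 z hz, zero_smul]).symm
  have h2 : ∀ F : Cn n → H, ContDiffOn ℝ ∞ F (A.e i).target →
      IntegrableOn (fun z => c z • Sl b F z I) Kc := fun F hF =>
    (hc.continuousOn.smul ((cont_Sl hU hb hF I).mono hs)).integrableOn_compact hK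
  refine Metric.tendsto_nhds.2 fun ε hε => ?_
  obtain ⟨s, hs0, h3⟩ := Mol.small (a := ∫ z in Kc, ‖c z‖ ^ 2)
    (integral_nonneg fun _ => sq_nonneg _) (half_pos hε)
  obtain ⟨t, ht0, h4⟩ := Mol.small (a := 1 / (2 * s) * C) (by positivity) (half_pos (half_pos hε))
  obtain ⟨F, hF, h5, h6⟩ := h (min t ((ε / 4) ^ 2)) (lt_min ht0 (by positivity))
  filter_upwards [h6] with k hk
  have h7 := norm_pair_le hK hc.continuousOn
    (((cont_Sl hU hb hF I).sub (cont_Sl hU hb (hg k) I)).mono hs) hs0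
  simp only [Pi.sub_apply, smul_sub] at h7
  rw [integral_sub (h2 F hF) (h2 _ (hg k)), ← h1, ← h1] at h7
  have h8 := mul_le_mul_of_nonneg_left (hC b F (g k) hb hF (hg k) I)
    (by positivity : 0 ≤ 1 / (2 * s))
  have h9 := h4 _ (hk.trans (min_le_left _ _))
  have h10 : ‖∫ z, c z • Sl b F z I‖ ≤ ε / 4 :=
    (pow_le_pow_iff_left₀ (norm_nonneg _) (by positivity) two_ne_zero).1
      (h5.trans (min_le_right _ _))
  have h11 := norm_sub_norm_le (∫ z, c z • Sl b (g k) z I) (∫ z, c z • Sl b F z I)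
  rw [norm_sub_rev] at h11
  rw [dist_zero_right]
  nlinarith [h3 s le_rfl, (integral_nonneg fun _ => sq_nonneg _ : 0 ≤ ∫ z in Kc, ‖c z‖ ^ 2)]

variable [CompleteSpace H]

theorem exists_S (hol : HolStmt) (hd : Dat D M a) (hf : ∀ k, (D.atl G).Sm (f k))
    (cau : ∀ i v, ∀ Kc ⊆ (A.e i).target, IsCompact Kc → ∀ I, ∀ η : ℝ, 0 < η → ∃ N, ∀ k ≥ N,
      ∀ l ≥ N, ∫ z in Kc, ‖Sl (rd D a i v) (rd D (f k) i v) z I -
        Sl (rd D a i v) (rd D (f l) i v) z I‖ ^ 2 ≤ η)
    (db : ∀ i v, ∀ z₀ ∈ (A.e i).target, ∃ V ∈ 𝓝 z₀, ∀ χ : Cn n → ℝ, ContDiff ℝ ∞ χ →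
      HasCompactSupport χ → tsupport χ ⊆ V → ∀ b I, Tendsto (fun k => ∫ z,
        wd (true, b) (cu χ) z • Sl (rd D a i v) (rd D (f k) i v) z I) atTop (𝓝 0)) :
    ∃ S : A.ι → G → X → FI n → H, (∀ i v I, DifferentiableOn ℂ
      (fun z => S i v ((A.e i).symm z) I) (A.e i).target) ∧ Lm D a f S := by
  choose T h1 h2 using fun i v I => hol n H (A.e i).target
    (fun k z => Sl (rd D a i v) (rd D (f k) i v) z I) (A.e i).open_target
    (fun k => cont_Sl (A.e i).open_target (hol_rd hd i v) (sm_rd (hf k) i v) I)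
    (fun Kc hs hK => cau i v Kc hs hK I) fun z₀ hz => (db i v z₀ hz).imp fun V hV =>
      ⟨hV.1, fun χ a1 a2 a3 b => hV.2 χ a1 a2 a3 b I⟩
  refine ⟨fun i v x I => T i v I (A.e i x), fun i v I => (h1 i v I).congr fun z hz => ?_,
    fun i v Kc hs hK I => (h2 i v I Kc hs hK).congr fun k =>
      setIntegral_congr_fun hK.measurableSet fun z hz => ?_⟩
  · simp only [(A.e i).right_inv hz]
  · simp only [(A.e i).right_inv (hs hz)]

/-- pairings with a test form converge -/
theorem tendsto_p2 (K : Kah A) (hd : Dat D M a) (hf : ∀ k, (D.atl G).Sm (f k))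
    (hS : ∀ i v I, ContinuousOn (fun z => S i v ((A.e i).symm z) I) (A.e i).target)
    (hL : Lm D a f S) (i : A.ι) (v : G) {B : Cn n → FI n → H} {Kc : Set (Cn n)}
    (hK : IsCompact Kc) (hs : Kc ⊆ (A.e i).target) (hB : ∀ I, ContinuousOn (fun z => B z I) Kc) :
    Tendsto (fun k => ∫ z in Kc, (p2 (K.g i ((A.e i).symm z)) (B z)
      (Sl (rd D a i v) (rd D (f k) i v) z)).re) atTop
      (𝓝 (∫ z in Kc, (p2 (K.g i ((A.e i).symm z)) (B z) (S i v ((A.e i).symm z))).re)) := by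
  obtain ⟨C, hC0, hC⟩ := Fam77.exists_hi K i hK hs
  have h1 := fun k I => (cont_Sl (A.e i).open_target (hol_rd hd i v) (sm_rd (hf k) i v) I).mono hs
  have h2 := fun I => (hS i v I).mono hs
  have h3 := (tendsto_finsetSum Finset.univ fun I _ => hL i v Kc hs hK I).const_mul C
  rw [Finset.sum_const_zero, mul_zero] at h3
  rw [← tendsto_sub_nhds_zero_iff]
  refine tendsto_of_am (a := ∫ z in Kc, n2 (K.g i ((A.e i).symm z)) (B z)) h3 fun s hs0 k => ?_
  have i0 := fun I =>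
    (((h1 k I).fun_sub (h2 I)).norm.fun_pow 2).integrableOn_compact (μ := volume) hK
  have i1 := ((Fam77.cont_n2 K i hs hB).integrableOn_compact (μ := volume) hK).const_mul (s / 2)
  have i2 := ((integrable_finsetSum Finset.univ fun I _ => i0 I).const_mul C).const_mul
    (1 / (2 * s))
  rw [← integral_sub ((Complex.continuous_re.comp_continuousOn'
    (Fam77.cont_p2 K i hs hB (h1 k))).integrableOn_compact hK)
    ((Complex.continuous_re.comp_continuousOn' (Fam77.cont_p2 K i hs hB h2)).integrableOn_compact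
      hK), ← integral_finsetSum _ fun I _ => i0 I, ← integral_const_mul, ← integral_const_mul,
    ← integral_const_mul, ← integral_add i1 i2, ← Real.norm_eq_abs]
  refine norm_integral_le_of_norm_le (i1.add i2)
    ((ae_restrict_iff' hK.measurableSet).2 (Eventually.of_forall fun z hz => ?_))
  have hg : (K.g i ((A.e i).symm z)).PosDef := Fam77.gr_pos K i (hs hz)
  have h4 := mul_le_mul_of_nonneg_left (norm_ip_le (gam_psd hg.inv) (B z)
    (Sl (rd D a i v) (rd D (f k) i v) z - S i v ((A.e i).symm z)) s hs0) (det_re_pos hg).le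
  have h5 := mul_le_mul_of_nonneg_left (hC z hz
    (Sl (rd D a i v) (rd D (f k) i v) z - S i v ((A.e i).symm z)))
    (by positivity : 0 ≤ 1 / (2 * s))
  rw [Fam77.n2_eq hg] at h5
  refine le_trans ?_ (h4.trans ((le_of_eq ?_).trans (add_le_add le_rfl h5)))
  · simp only [p2]
    rw [← Complex.sub_re, ← mul_sub, ← ip_sub_right]
    refine (Complex.abs_re_le_norm _).trans_eq ?_
    rw [norm_mul]
    congr 1
    exact (congrArg norm (det_ofReal hg)).trans
      ((Complex.norm_real _).trans (Real.norm_of_nonneg (det_re_pos hg).le))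
  · rw [Fam77.n2_eq hg]
    ring

theorem orth_of (K : Kah A) (hd : Dat D M a) (hf : ∀ k, (D.atl G).Sm (f k))
    (hS : ∀ i v I, ContinuousOn (fun z => S i v ((A.e i).symm z) I) (A.e i).target)
    (hL : Lm D a f S) (i : A.ι) (v : G) {u : Cn n → H} (hu : ContDiff ℝ ∞ u)
    (hc : HasCompactSupport u) (hs : tsupport u ⊆ (A.e i).target)
    (el : Tendsto (fun k => ∫ z, (ip (Q0 (K.g i ((A.e i).symm z)) (Cf (rd D a i v) z)) (th u z)
      (th (rd D (f k) i v) z)).re) atTop (𝓝 0)) :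
    ∫ z, (p2 (K.g i ((A.e i).symm z)) (Sl (rd D a i v) u z) (S i v ((A.e i).symm z))).re = 0 := by
  have h1 := tendsto_p2 K hd hf hS hL i v hc hs fun I =>
    (cont_Sl (A.e i).open_target (hol_rd hd i v) hu.contDiffOn I).mono hs
  have h2 : ∀ T : Cn n → FI n → H, ∫ z in tsupport u, (p2 (K.g i ((A.e i).symm z))
      (Sl (rd D a i v) u z) (T z)).re =
      ∫ z, (p2 (K.g i ((A.e i).symm z)) (Sl (rd D a i v) u z) (T z)).re := fun T =>
    setIntegral_eq_integral_of_forall_compl_eq_zero fun z hz => by simp [Sl_zero hz, p2, ip, dt]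
  simp only [h2] at h1
  simp only [p2_Sl] at h1
  exact tendsto_nhds_unique h1 el

/-- **the limit of a minimising sequence** -/
theorem isMin_of (hol : HolStmt) (K : Kah A) (hd : Dat D M a) {r : Rep M H} {b : M → H}
    (hf : ∀ k, Eqv D M r b (f k))
    (cau : ∀ i v, ∀ Kc ⊆ (A.e i).target, IsCompact Kc → ∀ η : ℝ, 0 < η → ∃ N, ∀ k ≥ N, ∀ l ≥ N,
      ∫ z in Kc, e0 (K.g i ((A.e i).symm z)) (Cf (rd D a i v) z)
        (th (rd D (f k) i v) z - th (rd D (f l) i v) z) ≤ η)
    (db : ∀ i v, ∀ z₀ ∈ (A.e i).target, ∃ V ∈ 𝓝 z₀, ∀ χ : Cn n → ℝ, ContDiff ℝ ∞ χ →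
      HasCompactSupport χ → tsupport χ ⊆ V → ∀ b I, Tendsto (fun k => ∫ z,
        wd (true, b) (cu χ) z • Sl (rd D a i v) (rd D (f k) i v) z I) atTop (𝓝 0))
    (el : ∀ i v (u : Cn n → H), ContDiff ℝ ∞ u → HasCompactSupport u →
      tsupport u ⊆ (A.e i).target → (∀ z, r.J (u z) = u z) →
      Tendsto (fun k => ∫ z, (ip (Q0 (K.g i ((A.e i).symm z)) (Cf (rd D a i v) z)) (th u z)
        (th (rd D (f k) i v) z)).re) atTop (𝓝 0)) :
    ∃ S : A.ι → G → X → FI n → H, Lm D a f S ∧ IsMin D K M a r b S := by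
  obtain ⟨S, h1, h2⟩ := exists_S hol hd (fun k => (hf k).sm) (fun i v Kc hs hK I η hη => by
    obtain ⟨C, hC0, hC⟩ := sl_le (H := H) (q := q) K hK hs
    obtain ⟨N, hN⟩ := cau i v Kc hs hK (η / C) (div_pos hη hC0)
    exact ⟨N, fun k hk l hl => (hC _ _ _ (hol_rd hd i v) (sm_rd (hf k).sm i v)
      (sm_rd (hf l).sm i v) I).trans ((le_div_iff₀' hC0).1 (hN k hk l hl))⟩) db
  exact ⟨S, h2, h1, ⟨f, hf, h2⟩, fun i v u a1 a2 a3 a4 => orth_of K hd (fun k => (hf k).sm)
    (fun i v I => (h1 i v I).continuousOn) h2 i v a1 a2 a3 (el i v u a1 a2 a3 a4)⟩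

end

end Crest.Agent.X261.Fam65
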